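import Vale.Agent.P123.Main

namespace Vale.Agent.Results.P123.Crouzeix

open scoped InnerProductSpace

/-- The numerical range `W(A) = {⟨Ax, x⟩ : ‖x‖ = 1}` (Mathlib's inner product is linear in the
second argument, so `⟨Ax, x⟩` is written `⟪x, A x⟫`). -/
def W {H : Type*} [NormedAddCommGroup H] [InnerProductSpace ℂ H] (A : H →L[ℂ] H) : Set ℂ :=
  {z | ∃ x : H, ‖x‖ = 1 ∧ ⟪x, A x⟫_ℂ = z}

theorem result {H : Type*} [NormedAddCommGroup H] [InnerProductSpace ℂ H] [CompleteSpace H]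
    [Nontrivial H] (A : H →L[ℂ] H) (P : Polynomial ℂ) :
    BddAbove ((fun z => ‖P.eval z‖) '' W A) ∧
      ‖Polynomial.aeval A P‖ ≤ 2 * sSup ((fun z => ‖P.eval z‖) '' W A) := by
  have hb : Bornology.IsBounded (W A) := isBounded_iff_forall_norm_le.2 ⟨‖A‖, by
    rintro _ ⟨x, hx, rfl⟩
    exact (norm_inner_le_norm _ _).trans (by simpa [hx] using A.le_opNorm x)⟩
  have h : BddAbove ((fun z => ‖P.eval z‖) '' W A) :=
    (hb.isCompact_closure.image P.continuous.norm).bddAbove.mono (Set.image_mono subset_closure)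
  exact ⟨h, Vale.Agent.P123.crouzeix A P fun x hx => le_csSup h ⟨_, ⟨x, hx, rfl⟩, rfl⟩⟩

end Vale.Agent.Results.P123.Crouzeix
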